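import Vale.Agent.P273.H828.TubeDefs

/-!
# P273, row ANN-C: the tubes of the commuting tori at the base configuration
-/

noncomputable section

namespace Vale.Agent.P273.H618

open Set MeasureTheory
open Vale.Agent.P273.H401 Vale.Agent.P273.H681 Vale.Agent.P273.H828

variable {V F : Type*} [AddCommGroup V] [Module ℝ V] [NormedAddCommGroup F] [NormedSpace ℝ F]

/-- the base configuration -/
def bc : C6 := ![1, 2, 3, 4, 5, 6]

/-- the annulus of the pair `k` at the base configuration -/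
def AR (D : Loc2 V F) (k : Fin 5) (v : V) : F :=
  ∫ y in strip, pb (fun y : Fin 2 → ℝ => pr k bc ((k : ℕ) + 3 / 2) (zz (y 0) (y 1) / 2))
    (D.Phi v) y (eb 2)

theorem contDiff_zz {E : Type*} [NormedAddCommGroup E] [NormedSpace ℝ E] {n : WithTop ℕ∞}
    {f g : E → ℝ} (hf : ContDiff ℝ n f) (hg : ContDiff ℝ n g) :
    ContDiff ℝ n fun x => zz (f x) (g x) := by
  unfold zz
  refine ContDiff.cexp ?_
  exact (Complex.ofRealCLM.contDiff.comp hf).neg.sub
    ((contDiff_const.mul (Complex.ofRealCLM.contDiff.comp hg)).mul contDiff_const)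

theorem zz_one (l : ℝ) : zz l 1 = -zz l 0 := by
  unfold zz
  rw [show -(l : ℂ) - (Real.pi : ℂ) * ((1 : ℝ) : ℂ) * Complex.I =
    -(l : ℂ) - Real.pi * ((0 : ℝ) : ℂ) * Complex.I - Real.pi * Complex.I by push_cast; ring,
    Complex.exp_sub, Complex.exp_pi_mul_I]
  ring

theorem zz_zero : zz 0 0 = 1 := by simp [zz]

theorem zz_re_pos (l : ℝ) : 0 < (zz l 0).re := by
  rw [zz_re]
  simp [Real.exp_pos]

theorem abs_zz_re {l : ℝ} (hl : 0 ≤ l) (s : ℝ) : |(zz l s).re| ≤ 1 := by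
  rw [zz_re, abs_mul, abs_of_pos (Real.exp_pos _)]
  have h1 : Real.exp (-l) ≤ 1 := Real.exp_le_one_iff.2 (by linarith)
  have h2 := Real.abs_cos_le_one (Real.pi * s)
  nlinarith [Real.exp_pos (-l), abs_nonneg (Real.cos (Real.pi * s))]

/-- the divisor configurations of the pair `1`, `2` with the pair `4`, `5` at `9/2 ∓ d` -/
def cA (d : ℂ) : C6 := ![3 / 2, 3 / 2, 3, 9 / 2 - d, 9 / 2 + d, 6]

/-- the divisor configurations of the pair `5`, `6` with the pair `2`, `3` at `5/2 ∓ d` -/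
def cB (d : ℂ) : C6 := ![1, 5 / 2 - d, 5 / 2 + d, 4, 11 / 2, 11 / 2]

theorem cA_mem {d : ℂ} (h1 : |d.re| ≤ 1 / 2) (h2 : d.re = 0 → d.im < 0) : cA d ∈ XD 0 := by
  have h3 := abs_le.1 h1
  refine ⟨rfl, ?_⟩
  intro i j hij hne hre
  fin_cases i <;> fin_cases j <;> first
    | (exfalso; revert hij; decide)
    | (exfalso; revert hne; decide)
    | skip
  all_goals
    simp [cA] at hre ⊢
  all_goals first
    | (exfalso; linarith)
    | exact h2 (by linarith)

theorem cB_mem {d : ℂ} (h1 : |d.re| ≤ 1 / 2) (h2 : d.re = 0 → d.im < 0) : cB d ∈ XD 4 := by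
  have h3 := abs_le.1 h1
  refine ⟨rfl, ?_⟩
  intro i j hij hne hre
  fin_cases i <;> fin_cases j <;> first
    | (exfalso; revert hij; decide)
    | (exfalso; revert hne; decide)
    | skip
  all_goals
    simp [cB] at hre ⊢
  all_goals first
    | (exfalso; linarith)
    | exact h2 (by linarith)

theorem half_re (l s : ℝ) : (zz l s / 2).re = (zz l s).re / 2 := by
  rw [Complex.div_re]; norm_num; ring

theorem abs_half {l : ℝ} (hl : 0 ≤ l) (s : ℝ) : |(zz l s / 2).re| ≤ 1 / 2 := by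
  rw [half_re, abs_div, abs_two]
  have := abs_zz_re hl s
  linarith

theorem half_eq (l s : ℝ) : zz l s / 2 = ((1 / 2 : ℝ) : ℂ) * zz l s := by
  push_cast; ring

theorem half_neg (l : ℝ) {s : ℝ} (hs : s ∈ Icc (0 : ℝ) 1) :
    (zz l s / 2).re = 0 → (zz l s / 2).im < 0 := by
  rw [half_eq]
  exact zz_neg (by norm_num) hs

theorem contDiff_cA {E : Type*} [NormedAddCommGroup E] [NormedSpace ℝ E] {n : WithTop ℕ∞}
    {f : E → ℂ} (hf : ContDiff ℝ n f) : ContDiff ℝ n fun x => cA (f x) := by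
  refine contDiff_pi.2 fun i => ?_
  fin_cases i
  · exact contDiff_const
  · exact contDiff_const
  · exact contDiff_const
  · exact contDiff_const.sub hf
  · exact contDiff_const.add hf
  · exact contDiff_const

theorem contDiff_cB {E : Type*} [NormedAddCommGroup E] [NormedSpace ℝ E] {n : WithTop ℕ∞}
    {f : E → ℂ} (hf : ContDiff ℝ n f) : ContDiff ℝ n fun x => cB (f x) := by
  refine contDiff_pi.2 fun i => ?_
  fin_cases i
  · exact contDiff_const
  · exact contDiff_const.sub hf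
  · exact contDiff_const.add hf
  · exact contDiff_const
  · exact contDiff_const
  · exact contDiff_const

theorem contDiff_half {E : Type*} [NormedAddCommGroup E] [NormedSpace ℝ E] {n : WithTop ℕ∞}
    {f g : E → ℝ} (hf : ContDiff ℝ n f) (hg : ContDiff ℝ n g) :
    ContDiff ℝ n fun x => zz (f x) (g x) / 2 :=
  (contDiff_zz hf hg).div_const 2

/-- the tube of the pair `1`, `2` while the pair `4`, `5` turns -/
def TA : Tube 0 where
  b t := cA (zz 0 t / 2)
  S x := zz (x 0) (x 1) / 2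
  ρ _ := 1 / 2
  l₁ := 0
  hb := contDiff_cA (contDiff_half contDiff_const contDiff_id)
  hS := contDiff_half (contDiff_apply ℝ ℝ 0) (contDiff_apply ℝ ℝ 1)
  hρ := contDiff_const
  hρ0 _ _ := by norm_num
  hfar x _ := half_eq _ _
  hflip l t _ _ := by
    change zz l 1 / 2 = -(zz l 0 / 2)
    rw [zz_one]; ring
  hpos l t _ _ := by
    change 0 < (zz l 0 / 2).re
    rw [half_re]
    have := zz_re_pos l
    linarith
  hXD t ht := cA_mem (abs_half le_rfl t) (half_neg 0 ht)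
  hXX l s t hl hs ht := by
    refine pr_mem (cA_mem (abs_half le_rfl t) (half_neg 0 ht)) (half_neg l hs) ?_
    change ∀ j, _ → _ → |(zz l s / 2).re| < _
    intro j hj1 hj2
    have h3 := abs_half hl s
    have h4 := abs_le.1 (abs_half le_rfl t)
    rw [half_re] at h4
    refine lt_of_le_of_lt h3 (lt_abs.2 (Or.inl ?_))
    have e : (cA (zz 0 t / 2) (0 : Fin 5).castSucc).re = 3 / 2 := by
      change (3 / 2 : ℂ).re = 3 / 2
      norm_num
    rw [e]
    fin_cases j
    · exact absurd rfl hj1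
    · exact absurd rfl hj2
    · norm_num [cA]
    · simp [cA]; linarith
    · simp [cA]; linarith
    · norm_num [cA]

/-- the tube of the pair `5`, `6` while the pair `2`, `3` turns -/
def TB : Tube 4 where
  b t := cB (zz 0 t / 2)
  S x := zz (x 0) (x 1) / 2
  ρ _ := 1 / 2
  l₁ := 0
  hb := contDiff_cB (contDiff_half contDiff_const contDiff_id)
  hS := contDiff_half (contDiff_apply ℝ ℝ 0) (contDiff_apply ℝ ℝ 1)
  hρ := contDiff_const
  hρ0 _ _ := by norm_num
  hfar x _ := half_eq _ _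
  hflip l t _ _ := by
    change zz l 1 / 2 = -(zz l 0 / 2)
    rw [zz_one]; ring
  hpos l t _ _ := by
    change 0 < (zz l 0 / 2).re
    rw [half_re]
    have := zz_re_pos l
    linarith
  hXD t ht := cB_mem (abs_half le_rfl t) (half_neg 0 ht)
  hXX l s t hl hs ht := by
    refine pr_mem (cB_mem (abs_half le_rfl t) (half_neg 0 ht)) (half_neg l hs) ?_
    change ∀ j, _ → _ → |(zz l s / 2).re| < _
    intro j hj1 hj2
    have h3 := abs_half hl s
    have h4 := abs_le.1 (abs_half le_rfl t)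
    rw [half_re] at h4
    refine lt_of_le_of_lt h3 (lt_abs.2 (Or.inr ?_))
    have e : (cB (zz 0 t / 2) (4 : Fin 5).castSucc).re = 11 / 2 := by
      change (11 / 2 : ℂ).re = 11 / 2
      norm_num
    rw [e]
    fin_cases j
    · norm_num [cB]
    · simp [cB]; linarith
    · simp [cB]; linarith
    · norm_num [cB]
    · exact absurd rfl hj1
    · exact absurd rfl hj2

/-- exchange of the labels in an integrand -/
theorem pb_swL (D : Loc2 V F) (k : Fin 5) (v : V) {E : Type*} [NormedAddCommGroup E]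
    [NormedSpace ℝ E] {R : E → C6} {y : E} (hR : DifferentiableAt ℝ R y) (hy : R y ∈ XX)
    (hre : (R y k.succ).re < (R y k.castSucc).re) :
    pb R (D.Phi v) y = pb (fun y => swL k (R y)) (D.Phi (D.s k v)) y := by
  unfold pb
  rw [D.equi k v _ hy hre]
  have h : fderiv ℝ (fun y => swL k (R y)) y = (swL k).comp (fderiv ℝ R y) :=
    ((swL k).hasFDerivAt.comp y hR.hasFDerivAt).fderiv
  rw [h]
  rfl

theorem TA_R (x : Fin 3 → ℝ) :
    TA.R x = pr 0 (cA (zz 0 (x 2) / 2)) (3 / 2) (zz (x 0) (x 1) / 2) := rfl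

theorem TB_R (x : Fin 3 → ℝ) :
    TB.R x = pr 4 (cB (zz 0 (x 2) / 2)) (11 / 2) (zz (x 0) (x 1) / 2) := rfl

theorem TA_A0 (D : Loc2 V F) (v : V) : TA.A D v 0 = AR D 0 v := by
  unfold Tube.A AR
  congr 1
  funext y
  congr 1
  congr 1
  funext y
  rw [TA_R]
  simp only [Matrix.cons_val]
  rw [zz_zero]
  funext j
  fin_cases j <;> simp [pr, cA, bc] <;> norm_num

theorem TB_A0 (D : Loc2 V F) (v : V) : TB.A D v 0 = AR D 4 v := by
  unfold Tube.A AR
  congr 1
  funext y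
  congr 1
  congr 1
  funext y
  rw [TB_R]
  simp only [Matrix.cons_val]
  rw [zz_zero]
  funext j
  fin_cases j <;> simp [pr, cB, bc] <;> norm_num

theorem zz01 : zz 0 1 = -1 := by rw [zz_one, zz_zero]

theorem differentiable_pr (k : Fin 5) (b : C6) (m : ℂ) :
    Differentiable ℝ fun y : Fin 2 → ℝ => pr k b m (zz (y 0) (y 1) / 2) := by
  have h : Differentiable ℝ fun y : Fin 2 → ℝ => zz (y 0) (y 1) / 2 :=
    (contDiff_half (n := 1) (contDiff_apply ℝ ℝ 0) (contDiff_apply ℝ ℝ 1)).differentiable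
      one_ne_zero
  rw [differentiable_pi]
  intro j
  unfold pr
  by_cases h1 : j = k.castSucc
  · simp only [h1, if_true]
    exact (differentiable_const m).sub h
  · by_cases h2 : j = k.succ
    · simp only [h2, if_true]
      simp only [h2 ▸ h1, if_false]
      exact (differentiable_const m).add h
    · simp only [h1, h2, if_false]
      exact differentiable_const _

theorem TA_A1 (D : Loc2 V F) (v : V) : TA.A D v 1 = AR D 0 (D.s 3 v) := by
  unfold Tube.A AR
  refine setIntegral_congr_fun measurableSet_strip fun y hy => ?_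
  have h1 : (fun y : Fin 2 → ℝ => TA.R ![y 0, y 1, 1]) =
      fun y => pr 0 (cA (-1 / 2)) (3 / 2) (zz (y 0) (y 1) / 2) := by
    funext y
    rw [TA_R]
    simp only [Matrix.cons_val]
    rw [zz01]
  have h2 : (fun y : Fin 2 → ℝ => pr 0 bc (((0 : Fin 5) : ℕ) + 3 / 2) (zz (y 0) (y 1) / 2)) =
      fun y => swL 3 (pr 0 (cA (-1 / 2)) (3 / 2) (zz (y 0) (y 1) / 2)) := by
    funext y j
    rw [swL_apply]
    fin_cases j <;> simp [pr, cA, bc, sw, Equiv.swap_apply_def] <;> norm_num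
  simp only [h1, h2]
  rw [pb_swL D 3 v (differentiable_pr 0 _ _ y)]
  · have h3 : pr 0 (cA (zz 0 1 / 2)) (3 / 2) (zz (y 0) (y 1) / 2) ∈ XX :=
      TA.hXX (y 0) (y 1) 1 hy.1 hy.2 (by simp)
    rwa [zz01] at h3
  · simp [pr, cA]
    norm_num

theorem TB_A1 (D : Loc2 V F) (v : V) : TB.A D v 1 = AR D 4 (D.s 1 v) := by
  unfold Tube.A AR
  refine setIntegral_congr_fun measurableSet_strip fun y hy => ?_
  have h1 : (fun y : Fin 2 → ℝ => TB.R ![y 0, y 1, 1]) =
      fun y => pr 4 (cB (-1 / 2)) (11 / 2) (zz (y 0) (y 1) / 2) := by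
    funext y
    rw [TB_R]
    simp only [Matrix.cons_val]
    rw [zz01]
  have h2 : (fun y : Fin 2 → ℝ => pr 4 bc (((4 : Fin 5) : ℕ) + 3 / 2) (zz (y 0) (y 1) / 2)) =
      fun y => swL 1 (pr 4 (cB (-1 / 2)) (11 / 2) (zz (y 0) (y 1) / 2)) := by
    funext y j
    rw [swL_apply]
    fin_cases j <;> simp [pr, cB, bc, sw, Equiv.swap_apply_def] <;> norm_num
  simp only [h1, h2]
  rw [pb_swL D 1 v (differentiable_pr 4 _ _ y)]
  · have h3 : pr 4 (cB (zz 0 1 / 2)) (11 / 2) (zz (y 0) (y 1) / 2) ∈ XX :=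
      TB.hXX (y 0) (y 1) 1 hy.1 hy.2 (by simp)
    rwa [zz01] at h3
  · simp [pr, cB]
    norm_num

/-- exchange of the two variables, a linear map -/
def ex2 : (Fin 2 → ℝ) →L[ℝ] (Fin 2 → ℝ) :=
  ContinuousLinearMap.pi fun i => ContinuousLinearMap.proj (Equiv.swap 0 1 i)

theorem ex2_apply (y : Fin 2 → ℝ) : ex2 y = ![y 1, y 0] := by
  funext i
  fin_cases i <;> rfl

theorem mp_ex2 : MeasurePreserving (MeasurableEquiv.piCongrLeft (fun _ : Fin 2 => ℝ)
    (Equiv.swap (0 : Fin 2) 1)) := volume_measurePreserving_piCongrLeft (fun _ : Fin 2 => ℝ) _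

theorem ex2_eq (y : Fin 2 → ℝ) : MeasurableEquiv.piCongrLeft (fun _ : Fin 2 => ℝ)
    (Equiv.swap (0 : Fin 2) 1) y = ex2 y := by
  funext i
  have h := MeasurableEquiv.piCongrLeft_apply_apply (β := fun _ : Fin 2 => ℝ)
    (Equiv.swap (0 : Fin 2) 1) y (Equiv.swap (0 : Fin 2) 1 i)
  rw [Equiv.swap_apply_self] at h
  exact h

theorem cubeInt_ex2 (f : (Fin 2 → ℝ) → F) :
    ∫ y in Icc (0 : Fin 2 → ℝ) 1, f (ex2 y) = ∫ y in Icc (0 : Fin 2 → ℝ) 1, f y := by
  have h := mp_ex2.setIntegral_preimage_emb (MeasurableEquiv.measurableEmbedding _) f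
    (Icc (0 : Fin 2 → ℝ) 1)
  have h2 : (MeasurableEquiv.piCongrLeft (fun _ : Fin 2 => ℝ) (Equiv.swap (0 : Fin 2) 1)) ⁻¹'
      Icc (0 : Fin 2 → ℝ) 1 = Icc (0 : Fin 2 → ℝ) 1 := by
    ext y
    rw [mem_preimage, ex2_eq, ex2_apply]
    simp only [mem_Icc, Pi.le_def, Fin.forall_fin_two]
    simp
    tauto
  rw [h2] at h
  simp only [ex2_eq] at h
  exact h

theorem pb_ex2 {E : Type*} [NormedAddCommGroup E] [NormedSpace ℝ E]
    {σ : (Fin 2 → ℝ) → E} (ω : E → E [⋀^Fin 2]→L[ℝ] F) {y : Fin 2 → ℝ}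
    (hσ : DifferentiableAt ℝ σ (ex2 y)) :
    pb (fun y => σ (ex2 y)) ω y (eb 2) = -pb σ ω (ex2 y) (eb 2) := by
  unfold pb
  have h : fderiv ℝ (fun y => σ (ex2 y)) y = (fderiv ℝ σ (ex2 y)).comp ex2 :=
    (hσ.hasFDerivAt.comp y ex2.hasFDerivAt).fderiv
  rw [h]
  set L := fderiv ℝ σ (ex2 y)
  change ω (σ (ex2 y)) (fun i => L (ex2 (eb 2 i))) = -ω (σ (ex2 y)) (fun i => L (eb 2 i))
  refine Eq.trans ?_ ((ω (σ (ex2 y))).toAlternatingMap.map_swap (fun i => L (eb 2 i))
    (show (0 : Fin 2) ≠ 1 by decide))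
  change ω (σ (ex2 y)) (fun i => L (ex2 (eb 2 i))) = ω (σ (ex2 y))
    ((fun i => L (eb 2 i)) ∘ Equiv.swap 0 1)
  congr 1
  funext i
  fin_cases i
  · change L (ex2 (eb 2 0)) = L (eb 2 1)
    congr 1
    funext j
    fin_cases j <;> simp [ex2_apply, eb]
  · change L (ex2 (eb 2 1)) = L (eb 2 0)
    congr 1
    funext j
    fin_cases j <;> simp [ex2_apply, eb]

/-- **ANN-C, pairs `1`, `2` and `4`, `5`** -/
theorem annC_14 (D : Loc2 V F) (hT : TubeProp D) (n : V) (hn : D.s 0 n = n) :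
    cubeInt (pb (fun y => pr 0 (pr 3 bc (9 / 2) (zz 0 (y 1) / 2)) (3 / 2) (zz 0 (y 0) / 2))
      (D.Phi n)) = AR D 0 (D.s 3 n) - AR D 0 n := by
  rw [← TA_A1, ← TA_A0, ← hT 0 n hn TA]
  congr 2
  funext y
  rw [TA_R]
  simp only [Matrix.cons_val]
  funext j
  fin_cases j <;> simp [pr, cA, bc]

/-- **ANN-C, pairs `2`, `3` and `5`, `6`** -/
theorem annC_25 (D : Loc2 V F) (hT : TubeProp D) (n : V) (hn : D.s 4 n = n) :
    cubeInt (pb (fun y => pr 1 (pr 4 bc (11 / 2) (zz 0 (y 1) / 2)) (5 / 2) (zz 0 (y 0) / 2))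
      (D.Phi n)) = AR D 4 n - AR D 4 (D.s 1 n) := by
  rw [← TB_A1, ← TB_A0, ← neg_sub, ← hT 4 n hn TB]
  unfold cubeInt
  rw [← integral_neg, ← cubeInt_ex2 (fun y => -pb (fun y : Fin 2 → ℝ => TB.R ![0, y 0, y 1])
    (D.Phi n) y (eb 2))]
  refine setIntegral_congr_fun measurableSet_Icc fun y _ => ?_
  have h1 : (fun y : Fin 2 → ℝ => pr 1 (pr 4 bc (11 / 2) (zz 0 (y 1) / 2)) (5 / 2)
      (zz 0 (y 0) / 2)) = fun y => (fun y : Fin 2 → ℝ => TB.R ![0, y 0, y 1]) (ex2 y) := by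
    funext y
    simp only [TB_R]
    rw [ex2_apply]
    simp only [Matrix.cons_val]
    funext j
    fin_cases j <;> simp [pr, cB, bc]
  simp only [h1]
  refine pb_ex2 (σ := fun y : Fin 2 → ℝ => TB.R ![0, y 0, y 1]) _ ?_
  have h2 : ContDiff ℝ 2 fun x : Fin 3 → ℝ => TB.R x := by
    have h3 : (fun x : Fin 3 → ℝ => TB.R x) =
        fun x => JL 4 (TB.b (x 2)) + IL 4 (TB.S x) := funext fun x => pr_eq _ _ _
    rw [h3]
    exact ((JL 4).contDiff.comp (TB.hb.comp (contDiff_apply ℝ ℝ 2))).add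
      ((IL 4).contDiff.comp TB.hS)
  have h4 : ContDiff ℝ 2 fun y : Fin 2 → ℝ => (![0, y 0, y 1] : Fin 3 → ℝ) := by
    refine contDiff_pi.2 fun i => ?_
    fin_cases i
    · exact contDiff_const
    · exact contDiff_apply ℝ ℝ 0
    · exact contDiff_apply ℝ ℝ 1
  exact ((h2.comp h4).differentiable two_ne_zero).differentiableAt

end Vale.Agent.P273.H618
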